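import Crest.Agent.X262.Sark46.End
import Crest.Agent.X262.Sark27.Can
import Crest.Agent.X262.FG.Up0
import Crest.Agent.X262.FG.ArrOut76
import Crest.Agent.X277.Unf.Main

/-!
# Row 262, SARK (helper46): the geography of two Fano models, `setup_of`
-/

set_option autoImplicit false

open Filter
open scoped KaehlerDifferential

noncomputable section

namespace Crest.Agent.X262.Sark46

open Crest.Agent.X277 Crest.Agent.X277.Lef Crest.Agent.X277.BD Crest.Agent.X277.Pst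
open Crest.Agent.X277.BD.Br (On oP kP)
open Crest.Agent.X262.Mod Crest.Agent.X262.Geo Crest.Agent.X262.Sark Crest.Agent.X262.FG

variable {K : Type} [Field K] [Algebra ℂ K] {n : ℕ} {W : PModel ℂ K}

/-- the class of an integral point -/
def hom {κ : Type} [Fintype κ] (D : κ → BD ℂ K) : (κ → ℤ) →+ BD ℂ K :=
  AddMonoidHom.mk' (fun x => ∑ k, x k • D k) fun x y => by
    simp only [Pi.add_apply, add_smul, Finset.sum_add_distrib]

theorem hom_single {κ : Type} [Fintype κ] [DecidableEq κ] (D : κ → BD ℂ K) (k : κ) :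
    hom D (Pi.single k 1) = D k := by
  change ∑ j, (Pi.single k 1 : κ → ℤ) j • D j = _
  rw [Finset.sum_eq_single k] <;> simp +contextual

/-- a geography with prescribed adjoint classes in the open orthant -/
theorem exists_gm (hA : AStmt n) (b : Module.Basis (Fin n) K Ω[K⁄ℂ]) {ι : Type} [Fintype ι]
    {g : ι → BD ℂ K} (hg : ∀ i, g i ∈ On W) (gen : ∀ a ∈ On W, ∃ m : ℕ, 0 < m ∧
      ∃ (c : ι → ℤ) (f : K), m • a = ∑ i, c i • g i + pr ℂ f)
    {r : ℕ} (hr : 0 < r) (h : Fin 3 → BD ℂ K) (hh : ∀ s, Amp W (h s)) :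
    ∃ G : Gm b, G.W = W ∧ ∀ s, ∃ (e o : G.κ → ℤ) (M : ℕ), 0 < M ∧ (∀ m : ℕ, Ps (m • e + o)) ∧
      G.D e = M • (r • kP W b + h s) := by
  classical
  have := eft W
  obtain ⟨M, M0, hM⟩ : ∃ M : ℕ, 0 < M ∧ ∀ i, Amp W (M • h 0 + g i) :=
    ((eventually_gt_atTop 0).and (eventually_all.2 fun i =>
      eventually_atTop.2 ((hh 0).exists_amp (hg i)))).exists
  let S : Sys (bd0 W b) (Fin 3 ⊕ ι) := ⟨M * r, mul_pos M0 hr,
    Sum.elim (fun s => M • h s) fun i => M • h 0 + g i,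
    fun k => k.rec (fun s => (hh s).nsmul M0) hM, 0, fun _ _ => le_rfl, fun _ e => e.elim⟩
  have hD : ∀ k, S.D b k = (M * r) • kP W b + S.A k := fun k => by
    change _ + dvs _ 0 = _
    rw [dvs_zero, add_zero]
  obtain ⟨N, l, c, Q, c0, h1, h2, h3⟩ :=
    Fan.arrOut_of_fg (S.D b) (hom (S.D b)) (fun _ => rfl) (hA K W _ b _ S)
  have mem : ∀ x, hom (S.D b) x ∈ On W := fun x =>
    sum_mem fun k _ => zsmul_mem (S.D_mem b k) _
  have sp : ∀ a ∈ On W, ∃ m : ℕ, 0 < m ∧ ∃ x f, m • a = hom (S.D b) x + pr ℂ f := fun a ha => by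
    obtain ⟨m, hm, c, f, e⟩ := gen a ha
    refine ⟨m, hm, ∑ i, c i • (Pi.single (.inr i) 1 - Pi.single (.inl 0) 1), f, ?_⟩
    rw [e, map_sum]
    congr 1
    refine Finset.sum_congr rfl fun i _ => ?_
    rw [map_zsmul, map_sub, hom_single, hom_single, hD, hD]
    exact congrArg _ (by simp [S])
  obtain ⟨mK, mK0, kk, fk, hk⟩ := sp _ (Br.kP_mem b)
  refine ⟨⟨W, isMod_oP W, Fin 3 ⊕ ι, hom (S.D b), fun x => car_of_On (mem x), fun a => ?_,
    fun V hV => ?_, kk, mK, mK0, fk⁻¹, by rw [hk, pr_inv, add_neg_cancel_right], fun x hx => ?_,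
    fun W' V h h' => (Sark27.canStmt K n b W W' V h).1 h',
    fun W' V h h' => (Sark27.canStmt K n b W W' V h).2 h', N, l, c, c0, Q, h1, h2, h3⟩, rfl,
    fun s => ⟨Pi.single (.inl s) 1, 1, M, M0, fun m k => ?_, ?_⟩⟩
  · obtain ⟨m, hm, x, f, e⟩ := sp _ (tr_mem (P := W) a)
    exact ⟨m, hm, x, f, e ▸ EqOn.nsmul (eqOn_iff.2 fun V hV => (od_tr hV a).symm) m⟩
  · obtain ⟨m, hm, x, f, e⟩ := sp _ (dv_mem (P := W) V)
    refine ⟨x, f, ?_, fun V' h4 h5 => ?_⟩ <;> rw [← e, val_nsmul]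
    · exact one_lt_pow₀ (one_lt_val_dv_self hV) hm.ne'
    · rw [val_dv_ne h4 h5, one_pow]
  · lift x to Fin 3 ⊕ ι → ℕ using fun k => (hx k).le
    have h4 : x ≠ 0 := fun h => by simpa [h] using hx (.inl 0)
    obtain ⟨h5, q, h6, h7⟩ := Amp.lc S.amp h4
    refine ⟨(∑ k, x k) * (M * r), q, lc S.A x, mul_pos (Finset.sum_pos
      (fun k _ => Nat.cast_pos.1 (hx k)) ⟨.inl 0, Finset.mem_univ _⟩) (mul_pos M0 hr), h6, ?_,
      car_of_On h5, h7⟩
    change ∑ k, (x k : ℤ) • S.D b k = _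
    simp only [natCast_zsmul, hD, smul_add, Finset.sum_add_distrib, ← Finset.sum_smul, mul_smul, lc]
  · have h4 : (0 : ℤ) ≤ (Pi.single (.inl s) 1 : Fin 3 ⊕ ι → ℤ) k := by
      rw [Pi.single_apply]
      split_ifs <;> simp
    exact add_pos_of_nonneg_of_pos (nsmul_nonneg h4 m) one_pos
  · change hom (S.D b) _ = _
    rw [hom_single, hD, smul_add, mul_smul]
    rfl

/-- **the geography of two Fano models** -/
theorem setup_of (hA : AStmt (n + 1)) : SetupStmt n := by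
  classical
  intro K _ _ b P X hP hX
  have := eft P
  have h0 := not_big_zero b P
  obtain ⟨W, hW⟩ := Unf.exists_on ({oP P, oP X} : Finset (BD ℂ K))
  have WP : oP P ∈ On W := hW _ (by simp)
  have WX : oP X ∈ On W := hW _ (by simp)
  obtain ⟨ι, _, g, hg, gn⟩ := gen hP WP
  obtain ⟨r, r0, h1, h2, h3⟩ := ((eventually_gt_atTop 0).and (((qb_kP (b := b) WP).ev (oP W)).and
    (((qb_kP (b := b) WX).ev (oP W)).and ((ng_kP hP WP).ev (oP W))))).exists
  have big : ∀ Y : PModel ℂ K, ∃ N : ℕ, Big (r • kP W b + (oP W + N • oP Y)) := fun Y => by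
    obtain ⟨N, hN⟩ := (big_oP Y).exists_sub (-(r • kP W b + oP W))
    exact ⟨N, by simpa only [sub_neg_eq_add, add_comm (N • oP Y), add_assoc] using hN N le_rfl⟩
  choose N hN using big
  have amp : ∀ Y : PModel ℂ K, oP Y ∈ On W → Amp W (oP W + N Y • oP Y) := fun Y h =>
    (amp_oP W).add_free (nsmul_mem h _) (Br.free_oP.nsmul _)
  obtain ⟨G, rfl, hG⟩ := exists_gm hA b hg gn r0 ![oP W, oP W + N P • oP P, oP W + N X • oP X]
    (Fin.forall_fin_succ.2 ⟨amp_oP W, Fin.forall_fin_two.2 ⟨amp P WP, amp X WX⟩⟩)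
  have eD : ∀ {e o : G.κ → ℤ} {M : ℕ} {a : BD ℂ K}, G.D e = M • a → ∀ m : ℕ,
      G.D (m • e + o) = (m * M) • a + G.D o := fun h m => by rw [map_add, map_nsmul, h, mul_smul]
  have td : ∀ {M : ℕ}, 0 < M → Tendsto (· * M) atTop atTop := fun h =>
    tendsto_id.atTop_mul_const' h
  have opn : ∀ Y : PModel ℂ K, Sark.Opn {x | QB Y G.W (G.D x)} := fun Y =>
    ⟨fun x hx y hy => by simpa using QB.add hx hy, fun x hx y => by
      simpa only [Set.mem_ofPred_eq, map_add, map_nsmul] using QB.ev hx (G.D y)⟩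
  have ends : ∀ (Y : PModel ℂ K) {e o : G.κ → ℤ} {M : ℕ}, 0 < M → QB Y G.W (r • kP G.W b + oP G.W) →
      G.D e = M • (r • kP G.W b + (oP G.W + N Y • oP Y)) →
      ∃ m : ℕ, Big (G.D (m • e + o)) ∧ QB Y G.W (G.D (m • e + o)) := fun Y e o M M0 h4 h5 => by
    obtain ⟨s, hs⟩ := (hN Y).exists_sub (-G.D o)
    obtain ⟨m, h6, h7⟩ := ((td M0).eventually ((eventually_ge_atTop s).and
      ((h4.add_on (nsmul_mem Br.oP_mem (N Y))).ev (G.D o)))).exists
    exact ⟨m, by simpa only [eD h5, sub_neg_eq_add] using hs _ h6,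
      by simpa only [eD h5, add_assoc] using h7⟩
  obtain ⟨e, o, M, M0, h4, h5⟩ := hG 0
  obtain ⟨e₁, o₁, M₁, M1, h6, h7⟩ := hG 1
  obtain ⟨e₂, o₂, M₂, M2, h8, h9⟩ := hG 2
  obtain ⟨m, h10, h11, h12⟩ := ((td M0).eventually ((h1.ev (G.D o)).and ((h2.ev (G.D o)).and
    (h3.ev (G.D o))))).exists
  obtain ⟨m₁, h13, h14⟩ := ends P (o := o₁) M1 h1 h7
  obtain ⟨m₂, h15, h16⟩ := ends X (o := o₂) M2 h2 h9
  have mem : ∀ y, G.D y ∈ On G.W := fun y => car_iff_On.1 (G.car y)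
  refine ⟨G, _, _, m • e + o, _, _, opn P, opn X, h4 m, h6 m₁, h8 m₂, fun y => ?_, h13, h15,
    show QB _ _ _ from (eD h5 m).symm ▸ h10, show QB _ _ _ from (eD h5 m).symm ▸ h11, h14, h16,
    fun y hy py hb => QB.sameP h0 hP WP (mem y) hy hb G.c_pos (G.pos y py hb.exists_eff),
    fun y hy py hb => QB.sameP h0 hX WX (mem y) hy hb G.c_pos (G.pos y py hb.exists_eff)⟩
  filter_upwards [h12.ev (G.D y)] with j hj ⟨i, hi, h17⟩
  refine hj.not_eff h0 hi ?_
  rwa [map_add, map_nsmul, eD h5] at h17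

end Crest.Agent.X262.Sark46
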