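import Crest.Agent.X262.Sark46.Path
import Crest.Agent.X262.Sark.Arr

/-!
# Row 262, SARK (helper46): `Sark.PathStmt` and `Sark.ChainStmt`

* `cut` : a convex union of closed cells with an interior point is cut out by forms of the
  arrangement;
* `pathStmt`, `chainStmt`.
-/

set_option autoImplicit false

open Filter

namespace Crest.Agent.X262.Sark46

section Gen

variable {Λ ι : Type*} [AddCommGroup Λ] {l : ι → Λ →+ ℤ} {I : Set ι} {x y z w : Λ}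

theorem Cd1.exists_form (h : Cd1 l x) :
    ∃ φ : Λ →+ ℤ, φ x = 0 ∧ ∀ y, φ y = 0 → y ∈ Zs l x := by
  by_cases h1 : Cham l x
  · exact ⟨0, rfl, fun y _ => h1.mem_Zs y⟩
  obtain ⟨i, hi, h2⟩ : ∃ i, l i x = 0 ∧ l i ≠ 0 := by simpa [Cham] using h1
  obtain ⟨p, hp⟩ := DFunLike.ne_iff.1 h2
  refine ⟨l i, hi, fun y hy => ?_⟩
  obtain ⟨a, b, h3, h4⟩ := h p y
  have h5 : a = 0 := by simpa [hy, show l i p ≠ 0 from hp] using h4 i hi
  exact mem_Zs_of_zsmul (by simpa [h5] using h3) (by simpa [h5] using h4)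

theorem Cd2.exists_form (h : Cd2 l x) :
    ∃ φ ψ : Λ →+ ℤ, φ x = 0 ∧ ψ x = 0 ∧ ∀ y, φ y = 0 → ψ y = 0 → y ∈ Zs l x := by
  by_cases h1 : Cham l x
  · exact ⟨0, 0, rfl, rfl, fun y _ _ => h1.mem_Zs y⟩
  obtain ⟨i, hi, h2⟩ : ∃ i, l i x = 0 ∧ l i ≠ 0 := by simpa [Cham] using h1
  obtain ⟨p, hp⟩ := DFunLike.ne_iff.1 h2
  by_cases h3 : ∀ y, l i y = 0 → y ∈ Zs l x
  · exact ⟨l i, 0, hi, rfl, fun y hy _ => h3 y hy⟩
  obtain ⟨q, h4, j, hj, h5⟩ : ∃ q, l i q = 0 ∧ ∃ j, l j x = 0 ∧ l j q ≠ 0 := by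
    simpa [mem_Zs] using h3
  refine ⟨l i, l j, hi, hj, fun y hy hy' => ?_⟩
  obtain ⟨a, b, c, h6, h7⟩ := h p q y
  have h8 : a = 0 := by simpa [hy, h4, show l i p ≠ 0 from hp] using h7 i hi
  have h9 : b = 0 := by simpa [hy', h8, h5] using h7 j hj
  exact mem_Zs_of_zsmul (by simpa [h8, h9] using h6) (by simpa [h8, h9] using h7)

theorem cd1_comb (hx : Cham l x) (hw : Cham (fun p : ι × ι => (l p.2).comp (ent l x p.1)) w)
    {a b : ℤ} (h0 : a ≠ 0 ∨ b ≠ 0) : Cd1 l (a • x + b • w) := by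
  by_cases h : ∃ i, l i (a • x + b • w) = 0 ∧ l i x ≠ 0
  · obtain ⟨i, hi, h1⟩ := h
    refine cd1_of (l i) fun y hy k hk => ?_
    have h2 := DFunLike.congr_fun (hw (i, k) (by
      simp only [map_add, map_zsmul, smul_eq_mul] at hi hk
      simp only [AddMonoidHom.comp_apply, l_ent]
      rcases h0 with h0 | h0 <;> refine mul_left_cancel₀ h0 ?_
      · linear_combination l i w * hk - l k w * hi
      · linear_combination l k x * hi - l i x * hk)) y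
    simpa [l_ent, hy, h1] using h2
  · refine cd1_of 0 fun y _ k hk => ?_
    rw [hx k (by
      by_contra h1
      exact h ⟨k, hk, h1⟩)]
    rfl

/-- the chamber across a wall -/
theorem Cd1.face_across (h : Cd1 l z) {s : Λ} (h1 : Face l z y) (h2 : Face l z s) {k : ι}
    (hk : l k z = 0) (h3 : 0 < l k y * l k s) : Face l y s := fun i => by
  by_cases hi : l i z = 0
  swap
  · have h4 := (h1 i).resolve_left hi
    have h5 := (h2 i).resolve_left hi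
    have h6 : 0 < (l i y * l i s) * (l i z * l i z) := by nlinarith [mul_pos h4 h5]
    exact .inr ((mul_pos_iff_of_pos_right (mul_self_pos.2 hi)).1 h6)
  obtain ⟨a, b, h4, h5⟩ := h y s
  have h6 := h5 k hk
  have h7 := h5 i hi
  rw [map_add, map_zsmul, map_zsmul, smul_eq_mul, smul_eq_mul] at h6 h7
  have h8 : l k y ≠ 0 := fun h => by simp [h] at h3
  have h9 : l k s ≠ 0 := fun h => by simp [h] at h3
  have hb : b ≠ 0 := fun h => by simp_all
  have h10 : l k y * l i s = l k s * l i y :=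
    mul_left_cancel₀ hb (by linear_combination l k y * h7 - l i y * h6)
  refine (eq_or_ne _ 0).imp_right fun h11 => ?_
  have h12 : 0 < (l i y * l i s) * (l k y * l k y) := by
    refine (mul_pos h3 (mul_self_pos.2 h11)).trans_eq ?_
    linear_combination -(l k y * l i y) * h10
  exact (mul_pos_iff_of_pos_right (mul_self_pos.2 h8)).1 h12

/-- **a convex union of closed cells is cut out by forms of the arrangement** -/
theorem cut [Finite ι] {O S : Λ → Prop} (hO : ∀ x y, O x → O y → O (x + y))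
    (oO : ∀ x, O x → Opn O x) (hS : ∀ x y, S x → S y → S (x + y))
    (cl : ∀ x y, O x → O y → S y → Face l x y → S x) (neg : ∀ i, ∃ j, l j = -l i)
    (hI : ∀ i, i ∈ I ↔ ∀ s, O s → S s → 0 ≤ l i s) (Ow : O w) (hw : Opn S w) (hw' : Inn l I w)
    (Ox : O x) (hx : In l I x) : S x := by
  obtain ⟨y, Oy, cy, hy, hf⟩ := hx.exists_cham hw' (oO x Ox)
  refine cl x y Ox Oy ?_ hf
  obtain ⟨v, ⟨⟨Ov, Sv⟩, hv⟩, cv⟩ := (((oO w Ow).and hw).and hw'.opn).exists_cham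
    (Sum.elim l fun p : ι × ι => (l p.2).comp (ent l y p.1))
  let T : Λ → Prop := fun p => O p ∧ Inn l I p ∧
    ∃ a b : ℤ, 0 ≤ a ∧ 0 ≤ b ∧ 0 < a + b ∧ p = a • y + b • v
  have hT : ∀ p q, T p → T q → T (p + q) := by
    rintro _ _ ⟨h1, h2, a, b, h3, h4, h5, rfl⟩ ⟨h6, h7, a', b', h8, h9, h10, rfl⟩
    exact ⟨hO _ _ h1 h6, h2.add_in h7.in, a + a', b + b', by omega, by omega, by omega, by module⟩
  have hc : ∀ p, T p → Cd1 l p := by
    rintro _ ⟨-, -, a, b, h3, h4, h5, rfl⟩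
    exact cd1_comb cy (fun p => cv (.inr p)) (by omega)
  have h1 := walls hT hc (y := v) (y' := y) ⟨Ov, hv, 0, 1, by simp⟩
    ⟨Oy, cy.inn hy, 1, 0, by simp⟩ (fun i => cv (.inl i)) cy
  clear hf hy Oy
  generalize y = y' at h1 ⊢
  induction h1 with
  | refl => exact Sv
  | @tail p q _ h2 ih =>
    obtain ⟨Tp, Tq, cp, cq, i, j, hi, hj, h3, h4⟩ := h2
    have Tz := hT _ _ (add_closed hT Tp hi) (add_closed hT Tq hj)
    have Sz := cl _ _ Tz.1 Tp.1 ih h3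
    generalize i • p + j • q = z at h3 h4 Tz Sz
    by_cases h5 : Conf l q p
    · exact cl _ _ Tq.1 Tp.1 ih (cp.face h5)
    obtain ⟨k, hk⟩ : ∃ k, l k q < 0 ∧ 0 < l k p := by
      obtain ⟨k, hk⟩ := not_forall.1 h5
      rcases mul_neg_iff.1 (not_le.1 hk) with h | h
      · obtain ⟨k', h6⟩ := neg k
        exact ⟨k', by simpa [h6] using h⟩
      · exact ⟨k, h⟩
    have h6 : l k z = 0 := by
      by_contra h6
      nlinarith [(h3 k).resolve_left h6, (h4 k).resolve_left h6, hk.1, hk.2]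
    obtain ⟨s, Os, Ss, h7⟩ : ∃ s, O s ∧ S s ∧ l k s < 0 := by
      by_contra h7
      rcases Tz.2.1 k ((hI k).2 fun s h8 h9 => not_lt.1 fun h10 => h7 ⟨s, h8, h9, h10⟩) with h | h
      · simp [h] at hk
      · exact h.ne' h6
    obtain ⟨m, h8, h9⟩ := ((eventually_gt_atTop 0).and (opn_face l z s)).exists
    exact cl _ _ Tq.1 (hO _ _ (add_closed hO Tz.1 h8) Os) (hS _ _ (add_closed hS Sz h8) Ss)
      ((hc z Tz).face_across h4 h9 h6 (by simpa [h6] using mul_pos_of_neg_of_neg hk.1 h7))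

end Gen

variable {κ : Type} {N : ℕ} {l : Fin N → (κ → ℤ) →+ ℤ} {x y : κ → ℤ}

theorem cham_iff : Sark.Cham l y ↔ Cham l y := forall_congr' fun _ => not_imp_not

/-- the forms and their negatives -/
def dbl (l : Fin N → (κ → ℤ) →+ ℤ) : Fin N ⊕ Fin N → (κ → ℤ) →+ ℤ := Sum.elim l fun i => -l i

theorem cd_one (h : Cd1 (dbl l) x) : Sark.Cd l x 1 := by
  obtain ⟨φ, h1, h2⟩ := h.exists_form
  exact ⟨![φ], by simpa using h1, fun i hi y hy => h2 y (hy 0) (.inl i) hi⟩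

theorem cd_two (h : Cd2 (dbl l) x) : Sark.Cd l x 2 := by
  obtain ⟨φ, ψ, h1, h2, h3⟩ := h.exists_form
  exact ⟨![φ, ψ], by simpa using ⟨h1, h2⟩, fun i hi y hy => h3 y (hy 0) (hy 1) (.inl i) hi⟩

theorem pathStmt : Sark.PathStmt := by
  intro κ _ N l S Q₀ Q₁ u w₀ w₁ hS hQ₀ hQ₁ Pu P₀ P₁ hu h₀ h₁ u₀ u₁ m₀ m₁
  let I : Set (Fin N ⊕ Fin N) := {i | ∀ s, Sark.Ps s → s ∈ S → 0 ≤ dbl l i s}
  have aS : ∀ x y, x ∈ S → y ∈ S → x + y ∈ S := fun x y hx hy => hS.add x hx y hy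
  have up : ∀ {w y : κ → ℤ} {n : ℕ}, w ∈ S → n • w + y ∈ S →
      ∀ᶠ m : ℕ in atTop, m • w + y ∈ S := fun {w y n} hw h => by
    filter_upwards [eventually_gt_atTop n] with m hm
    have h1 := aS _ _ (add_closed aS hw (Nat.sub_pos_of_lt hm)) h
    rwa [← add_assoc, ← add_nsmul, Nat.sub_add_cancel hm.le] at h1
  have opn : ∀ {w : κ → ℤ}, ¬ Sark.Bdy S w → Opn (· ∈ S) w := fun {w} hw y => by
    simp only [Sark.Bdy, not_exists, not_forall, not_not] at hw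
    obtain ⟨n, h1⟩ := hw w
    obtain ⟨m, h2⟩ := hw y
    exact up (hS.div (n + 1) w n.succ_pos (succ_nsmul w n ▸ h1)) h2
  have neg : ∀ {i}, dbl l i ≠ 0 → ∃ y, dbl l i y < 0 := fun {i} hi => by
    obtain ⟨y, hy⟩ := DFunLike.ne_iff.1 hi
    rcases lt_or_gt_of_ne hy with h | h
    · exact ⟨y, h⟩
    · exact ⟨-y, by simpa using h⟩
  have inn : ∀ {w : κ → ℤ}, Sark.Ps w → ¬ Sark.Bdy S w → Inn (dbl l) I w := fun {w} Pw hw i hi => by
    refine (eq_or_ne _ 0).imp_right fun h => not_le.1 fun h1 => ?_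
    obtain ⟨y, hy⟩ := neg h
    obtain ⟨m, h2, h3⟩ := ((Pw.ev y).and (opn hw y)).exists
    have h4 := hi _ h2 h3
    rw [map_add, map_nsmul, nsmul_eq_mul] at h4
    nlinarith [mul_nonneg (Nat.cast_nonneg (α := ℤ) m) (neg_nonneg.2 h1)]
  have mem : ∀ {x : κ → ℤ}, Sark.Ps x → In (dbl l) I x → x ∈ S := fun {x} Px hx =>
    cut (O := Sark.Ps) (fun _ _ => Sark.Ps.add) (fun _ h => h.ev) aS
      (fun x y h1 h2 h3 h4 => hS.cl x y h1 h2 h3 fun i => h4 (.inl i))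
      (fun i => i.rec (fun i => ⟨.inr i, rfl⟩) fun i => ⟨.inl i, (neg_neg _).symm⟩)
      (fun _ => Iff.rfl) P₀ (opn h₀) (inn P₀ h₀) Px hx
  have bd : ∀ {x : κ → ℤ}, Sark.Ps x → In (dbl l) I x → ¬ Inn (dbl l) I x → Sark.Bdy S x :=
    fun {x} Px hx h => by
      obtain ⟨i, hi, h1, h2⟩ : ∃ i ∈ I, dbl l i ≠ 0 ∧ dbl l i x ≤ 0 := by
        simpa only [Inn, not_forall, not_or, not_lt, exists_prop] using h
      obtain ⟨y, hy⟩ := neg h1
      refine ⟨y, fun n hn => ?_⟩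
      obtain ⟨m, h3, h4⟩ := ((Px.ev y).and (up (mem Px hx) hn)).exists
      have h5 := hi _ h3 h4
      rw [map_add, map_nsmul, le_antisymm h2 (hx i hi), smul_zero, zero_add] at h5
      exact hy.not_ge h5
  have fct : ∀ {f y : κ → ℤ}, Fct (dbl l) I Sark.Ps f y → Sark.Fct l S f := fun h =>
    ⟨h.pos, mem h.pos (h.mem.of_face h.face), bd h.pos (h.mem.of_face h.face) h.bd, cd_one h.cd⟩
  have adj : ∀ {x f y f' y' : κ → ℤ}, Sark.Ps x → ¬ Inn (dbl l) I x → Cd2 (dbl l) x →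
      Face (dbl l) x f → Face (dbl l) x f' → Fct (dbl l) I Sark.Ps f y →
      Fct (dbl l) I Sark.Ps f' y' → Sark.Adjc l S f f' := fun h1 h2 h3 h4 h5 h6 h7 =>
    have h8 := (h6.mem.of_face h6.face).of_face h4
    ⟨fct h6, fct h7, _, ⟨h1, mem h1 h8, bd h1 h8 h2, cd_two h3⟩, fun i => h4 (.inl i),
      fun i => h5 (.inl i)⟩
  obtain ⟨f, f', h1, h2, ⟨y, h3⟩, ⟨y', h4⟩, h5⟩ := path (l := dbl l) (I := I) (O := Sark.Ps)
    (R := (· ∈ Q₀)) (R' := (· ∈ Q₁)) (fun _ _ => Sark.Ps.add)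
    (fun x y hx hy => hQ₀.add x hx y hy) (fun x y hx hy => hQ₁.add x hx y hy) (fun _ h => h.ev)
    hQ₀.ev hQ₁.ev (fun h => by
      obtain ⟨m, h1, h2⟩ := ((eventually_gt_atTop 0).and (hu 0)).exists
      exact h2 (by simpa using add_closed aS (mem Pu h) h1))
    (inn P₀ h₀) (inn P₁ h₁) Pu P₀ P₁ u₀ u₁ m₀ m₁
  refine ⟨f, h1, f', h2, fct h3, fct h4, ?_⟩
  clear h2 h4
  induction h5 with
  | refl => exact .refl
  | tail _ h ih =>
    obtain ⟨x, _, _, h6, h7, h8, h9, h10, h11, h12⟩ := h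
    exact ih.tail (adj h6 h7 h8 h9 h10 h11 h12)

theorem chainStmt : Sark.ChainStmt := by
  intro κ N l p₀ p₁ h₀
  suffices h : ∀ y₀, Sark.Seg p₀ p₁ y₀ → Sark.Cham l y₀ → ∃ y, Sark.Seg p₀ p₁ y ∧ Sark.Cham l y ∧
      Sark.Face l p₁ y ∧ Relation.ReflTransGen (Sark.Nxt l p₀ p₁) y₀ y from
    h p₀ ⟨1, 0, one_pos, by simp⟩ h₀
  intro y₀ s₀ c₀
  induction hn : {i | l i y₀ * l i p₁ < 0}.ncard using Nat.strong_induction_on
    generalizing y₀ with
  | _ n ih =>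
  have c₀' := cham_iff.1 c₀
  by_cases hc : Conf l y₀ p₁
  · exact ⟨y₀, s₀, c₀, c₀'.face hc.symm, .refl⟩
  have seg : ∀ {a : ℕ} (b : ℕ), 0 < a → Sark.Seg p₀ p₁ (a • y₀ + b • p₁) := fun {a} b ha => by
    obtain ⟨c, d, h1, rfl⟩ := s₀
    exact ⟨a * c, a * d + b, mul_pos ha h1, by module⟩
  obtain ⟨i, -, h1, h2, h3⟩ := exists_ent (l := fun j => l j y₀ • l j) (I := Set.univ) (u := p₁)
    (w := y₀) (fun h => hc fun j => h j trivial) fun j _ =>
      (eq_or_ne (l j y₀) 0).imp (fun h => by simp [h]) mul_self_pos.2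
  obtain ⟨a, ha⟩ := Int.eq_ofNat_of_zero_le (neg_pos.2 h1).le
  obtain ⟨b, hb⟩ := Int.eq_ofNat_of_zero_le h2.le
  have a0 : 0 < a := Nat.cast_pos.1 (ha ▸ neg_pos.2 h1)
  have b0 : 0 < b := Nat.cast_pos.1 (hb ▸ h2)
  have e : ent (fun j => l j y₀ • l j) p₁ i y₀ = a • y₀ + b • p₁ := by
    rw [← natCast_zsmul, ← natCast_zsmul, ← ha, ← hb, neg_smul, neg_add_eq_sub]
    rfl
  have h4 : l i (a • y₀ + b • p₁) = 0 := by
    have h5 := l_ent (l := fun j => l j y₀ • l j) p₁ y₀ i i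
    rw [e, mul_comm, sub_self] at h5
    exact (mul_eq_zero.1 h5).resolve_left fun h => by simp [h] at h2
  rw [e] at h3
  have h5 : Face l (a • y₀ + b • p₁) y₀ := c₀'.face (Conf.symm fun j => h3 j trivial)
  obtain ⟨m, m0, h6⟩ := ((eventually_gt_atTop 0).and (opn_face l (a • y₀ + b • p₁) p₁)).exists
  have e1 : m • (a • y₀ + b • p₁) + p₁ = (m * a) • y₀ + (m * b + 1) • p₁ := by module
  have h7 : Cham l (m • (a • y₀ + b • p₁) + p₁) := fun j hj => by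
    have h8 := (h6 j).resolve_right (by simp only [hj, mul_zero, lt_self_iff_false, not_false_iff])
    rw [map_add, map_nsmul, h8, smul_zero, zero_add] at hj
    rw [map_add, map_nsmul, map_nsmul, hj, smul_zero, add_zero] at h8
    exact c₀' j (by simpa [a0.ne'] using h8)
  suffices h : {j | l j (m • (a • y₀ + b • p₁) + p₁) * l j p₁ < 0} ⊂ {j | l j y₀ * l j p₁ < 0} by
    obtain ⟨y, h8, h9, h10, h11⟩ := ih _ (hn ▸ Set.ncard_lt_ncard h) _
      (e1 ▸ seg _ (mul_pos m0 a0)) (cham_iff.2 h7) rfl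
    exact ⟨y, h8, h9, h10, .head ⟨s₀, e1 ▸ seg _ (mul_pos m0 a0), c₀, cham_iff.2 h7,
      ⟨_, seg b a0, h5, h6, m * b + 1, a, b, Nat.succ_pos _, a0, b0, by module⟩,
      1, m * a, m * b + 1, one_pos, by module⟩ h11⟩
  refine ⟨fun j hj => ?_, fun h => ?_⟩
  · rw [Set.mem_ofPred_eq, e1, map_add, map_nsmul, map_nsmul, nsmul_eq_mul, nsmul_eq_mul] at hj
    rw [Set.mem_ofPred_eq]
    by_contra h8
    nlinarith [mul_nonneg (Nat.cast_nonneg (α := ℤ) (m * a)) (not_lt.1 h8),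
      mul_nonneg (Nat.cast_nonneg (α := ℤ) (m * b + 1)) (mul_self_nonneg (l j p₁))]
  · have h8 := h (show l i y₀ * l i p₁ < 0 from h1)
    rw [Set.mem_ofPred_eq, map_add, map_nsmul, h4, smul_zero, zero_add] at h8
    exact absurd h8 (not_lt.2 (mul_self_nonneg _))

end Crest.Agent.X262.Sark46
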