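import Mathlib

/-!
# Row 262, SARK (helper46): hyperplane arrangements

`l i : Λ →+ ℤ` is a finite family of forms.

* `Conf l x y` : no form separates `x` and `y`; `Face l x y` : `x` lies in the closed cell of `y`;
* `Zs l x` : the span of the cell of `x`; `Cham l y` : the cell of `y` is open;
  `Cd1`, `Cd2` : the cell has codimension at most one, two;
* `In l I x` : the cone cut out by the forms of `I`; `Inn` : its interior;
* `chain` : every additive subsemigroup is connected for the face relation;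
* `In.exists_cham` : every point of a cone with interior is a face of a chamber of the cone.
-/

set_option autoImplicit false

open Filter

namespace Crest.Agent.X262.Sark46

variable {Λ ι : Type*} [AddCommGroup Λ] (l : ι → Λ →+ ℤ)

/-- no form separates `x` and `y` -/
def Conf (x y : Λ) : Prop := ∀ i, 0 ≤ l i x * l i y

/-- `x` lies in the closure of the cell of `y` -/
def Face (x y : Λ) : Prop := ∀ i, l i x = 0 ∨ 0 < l i x * l i y

/-- the span of the cell of `x` -/
def Zs (x : Λ) : AddSubgroup Λ where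
  carrier := {z | ∀ i, l i x = 0 → l i z = 0}
  add_mem' ha hb i hi := by rw [map_add, ha i hi, hb i hi, add_zero]
  zero_mem' i _ := map_zero _
  neg_mem' ha i hi := by rw [map_neg, ha i hi, neg_zero]

/-- the cell of `y` is open -/
def Cham (y : Λ) : Prop := ∀ i, l i y = 0 → l i = 0

/-- the cell of `x` has codimension at most one -/
def Cd1 (x : Λ) : Prop :=
  ∀ y z : Λ, ∃ a b : ℤ, (a ≠ 0 ∨ b ≠ 0) ∧ a • y + b • z ∈ Zs l x

/-- the cell of `x` has codimension at most two -/
def Cd2 (x : Λ) : Prop :=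
  ∀ y z w : Λ, ∃ a b c : ℤ, (a ≠ 0 ∨ b ≠ 0 ∨ c ≠ 0) ∧ a • y + b • z + c • w ∈ Zs l x

/-- the cone cut out by the forms of `I` -/
def In (I : Set ι) (x : Λ) : Prop := ∀ i ∈ I, 0 ≤ l i x

/-- the interior of the cone -/
def Inn (I : Set ι) (x : Λ) : Prop := ∀ i ∈ I, l i = 0 ∨ 0 < l i x

/-- open cones -/
def Opn (U : Λ → Prop) (u : Λ) : Prop := ∀ y, ∀ᶠ m : ℕ in atTop, U (m • u + y)

variable {l} {I : Set ι} {x y z w : Λ}

theorem mem_Zs : z ∈ Zs l x ↔ ∀ i, l i x = 0 → l i z = 0 := Iff.rfl

theorem self_mem_Zs (x : Λ) : x ∈ Zs l x := fun _ h => h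

theorem mem_Zs_of_zsmul {a : ℤ} (ha : a ≠ 0) (h : a • z ∈ Zs l x) : z ∈ Zs l x := fun i hi => by
  simpa [ha] using h i hi

theorem Face.rfl : Face l x x := fun i => (eq_or_ne (l i x) 0).imp_right mul_self_pos.2

theorem Face.conf (h : Face l x y) : Conf l x y := fun i =>
  (h i).elim (fun h => by simp [h]) le_of_lt

theorem Conf.symm (h : Conf l x y) : Conf l y x := fun i => mul_comm (l i x) _ ▸ h i

theorem Conf.rfl : Conf l x x := fun _ => mul_self_nonneg _

theorem Face.trans (h : Face l x y) (h' : Face l y z) : Face l x z := fun i =>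
  (h i).imp_right fun h1 => by
    rcases h' i with h2 | h2
    · simp [h2] at h1
    · have h3 : 0 < l i y * l i y := mul_self_pos.2 fun h => by simp [h] at h1
      have h4 : 0 < (l i x * l i z) * (l i y * l i y) := by nlinarith [mul_pos h1 h2]
      exact (mul_pos_iff_of_pos_right h3).1 h4

theorem Face.conf_of (h : Face l x z) (h' : Face l y z) : Conf l x y := fun i => by
  rcases h i with h1 | h1
  · simp [h1]
  rcases h' i with h2 | h2
  · simp [h2]
  have h3 : 0 < l i z * l i z := mul_self_pos.2 fun h => by simp [h] at h1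
  have h4 : 0 < (l i x * l i y) * (l i z * l i z) := by nlinarith [mul_pos h1 h2]
  exact ((mul_pos_iff_of_pos_right h3).1 h4).le

theorem Conf.face_add (h : Conf l x y) : Face l x (x + y) := fun i =>
  (eq_or_ne (l i x) 0).imp_right fun h1 => by
    rw [map_add, mul_add]
    exact add_pos_of_pos_of_nonneg (mul_self_pos.2 h1) (h i)

theorem Conf.add (h : Conf l x y) (h' : Conf l x z) : Conf l x (y + z) := fun i => by
  rw [map_add, mul_add]
  exact add_nonneg (h i) (h' i)

theorem Conf.nsmul (h : Conf l x y) (m : ℕ) : Conf l x (m • y) := fun i => by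
  rw [map_nsmul, nsmul_eq_mul, mul_left_comm]
  exact mul_nonneg (Nat.cast_nonneg m) (h i)

theorem Face.add (h : Face l x y) (h' : Conf l x z) : Face l x (y + z) := fun i =>
  (h i).imp_right fun h1 => by
    rw [map_add, mul_add]
    exact add_pos_of_pos_of_nonneg h1 (h' i)

theorem Face.add_left (h : Face l x z) (h' : Face l y z) : Face l (x + y) z := fun i => by
  rw [map_add, add_mul]
  rcases h i with h1 | h1 <;> rcases h' i with h2 | h2
  · simp [h1, h2]
  · simp [h1, h2]
  · simp [h1, h2]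
  · exact .inr (add_pos h1 h2)

theorem Face.nsmul (h : Face l x y) {m : ℕ} (hm : 0 < m) : Face l x (m • y) := fun i =>
  (h i).imp_right fun h1 => by
    rw [map_nsmul, nsmul_eq_mul, mul_left_comm]
    exact mul_pos (Nat.cast_pos.2 hm) h1

theorem Face.nsmul_left (h : Face l x y) (m : ℕ) : Face l (m • x) y := by
  induction m with
  | zero => exact fun i => .inl (by simp)
  | succ m ih => exact succ_nsmul x m ▸ ih.add_left h

theorem Face.Zs_le (h : Face l x y) : Zs l x ≤ Zs l y := fun _ hz i hi =>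
  hz i ((h i).resolve_right (by simp [hi]))

theorem Face.mem_Zs (h : Face l x y) : x ∈ Zs l y := h.Zs_le (self_mem_Zs x)

theorem Face.symm_of_mem (h : Face l x y) (hy : y ∈ Zs l x) : Face l y x := fun i =>
  (h i).imp (hy i) fun h1 => mul_comm (l i x) _ ▸ h1

theorem Conf.face_of_mem (h : Conf l x y) (hx : x ∈ Zs l y) : Face l x y := fun i =>
  (eq_or_ne (l i x) 0).imp_right fun h1 =>
    (h i).lt_of_ne' (mul_ne_zero h1 fun h2 => h1 (hx i h2))

theorem Cham.mem_Zs (h : Cham l y) (z : Λ) : z ∈ Zs l y := fun i hi => by simp [h i hi]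

theorem cham_of_mem (h : ∀ z, z ∈ Zs l y) : Cham l y := fun i hi =>
  AddMonoidHom.ext fun z => h z i hi

theorem Cham.face (h : Cham l y) (hc : Conf l x y) : Face l x y := hc.face_of_mem (h.mem_Zs x)

theorem Cham.of_face (h : Cham l x) (hf : Face l x y) : Cham l y :=
  cham_of_mem fun z => hf.Zs_le (h.mem_Zs z)

theorem Cham.symm (h : Cham l x) (hf : Face l x y) : Face l y x := hf.symm_of_mem (h.mem_Zs y)

theorem Cd2.of_face (h : Cd2 l x) (hf : Face l x y) : Cd2 l y := fun a b c =>
  (h a b c).imp fun _ h => h.imp fun _ h => h.imp fun _ h => ⟨h.1, hf.Zs_le h.2⟩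

theorem Cd1.of_face (h : Cd1 l x) (hf : Face l x y) : Cd1 l y := fun a b =>
  (h a b).imp fun _ h => h.imp fun _ h => ⟨h.1, hf.Zs_le h.2⟩

theorem Cd2.cd1 (h : Cd2 l x) (hf : Face l x y) (hy : y ∉ Zs l x) : Cd1 l y := fun p q => by
  obtain ⟨a, b, c, h1, h2⟩ := h p q y
  refine ⟨a, b, ?_, ?_⟩
  · by_contra h3
    rw [not_or, not_not, not_not] at h3
    simp only [h3.1, h3.2, ne_eq, not_true, false_or, zero_smul, zero_add] at h1 h2
    exact hy (mem_Zs_of_zsmul h1 h2)
  · simpa using sub_mem (hf.Zs_le h2) (zsmul_mem (self_mem_Zs y) c)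

theorem Cd1.cham (h : Cd1 l x) (hf : Face l x y) (hy : y ∉ Zs l x) : Cham l y :=
  cham_of_mem fun p => by
    obtain ⟨a, c, h1, h2⟩ := h p y
    refine mem_Zs_of_zsmul (a := a) (fun h3 => ?_) ?_
    · simp only [h3, ne_eq, not_true, false_or, zero_smul, zero_add] at h1 h2
      exact hy (mem_Zs_of_zsmul h1 h2)
    · simpa using sub_mem (hf.Zs_le h2) (zsmul_mem (self_mem_Zs y) c)

theorem In.zero : In l I 0 := fun i _ => by simp

theorem In.add (h : In l I x) (h' : In l I y) : In l I (x + y) := fun i hi => by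
  rw [map_add]
  exact add_nonneg (h i hi) (h' i hi)

theorem In.nsmul (h : In l I x) (m : ℕ) : In l I (m • x) := fun i hi => by
  rw [map_nsmul]
  exact nsmul_nonneg (h i hi) m

theorem In.of_nsmul {m : ℕ} (hm : 0 < m) (h : In l I (m • x)) : In l I x := fun i hi => by
  have h1 := h i hi
  rw [map_nsmul, nsmul_eq_mul] at h1
  exact nonneg_of_mul_nonneg_right h1 (Nat.cast_pos.2 hm)

theorem In.of_face (h : In l I y) (hf : Face l x y) : In l I x := fun i hi =>
  (hf i).elim (fun h => h.ge) fun h1 => by nlinarith [h i hi]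

theorem Inn.in (h : Inn l I x) : In l I x := fun i hi =>
  (h i hi).elim (fun h => by simp [h]) le_of_lt

theorem Inn.add_in (h : Inn l I x) (h' : In l I y) : Inn l I (x + y) := fun i hi =>
  (h i hi).imp_right fun h1 => by
    rw [map_add]
    exact add_pos_of_pos_of_nonneg h1 (h' i hi)

theorem Inn.of_face (h : Inn l I x) (hf : Face l x y) : Inn l I y := fun i hi =>
  (h i hi).imp_right fun h1 => (mul_pos_iff_of_pos_left h1).1 ((hf i).resolve_left h1.ne')

theorem Cham.inn (h : Cham l y) (hy : In l I y) : Inn l I y := fun i hi =>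
  (hy i hi).eq_or_lt.imp_left fun h1 => h i h1.symm

theorem Opn.mono {U U' : Λ → Prop} (h : Opn U x) (hU : ∀ y, U y → U' y) : Opn U' x :=
  fun y => (h y).mono fun _ => hU _

theorem Opn.and {U U' : Λ → Prop} (h : Opn U x) (h' : Opn U' x) : Opn (fun y => U y ∧ U' y) x :=
  fun y => (h y).and (h' y)

theorem ev_pos {a : ℤ} (ha : 0 < a) (b : ℤ) : ∀ᶠ m : ℕ in atTop, 0 < m * a + b := by
  filter_upwards [eventually_gt_atTop b.natAbs] with m hm
  have h1 : -b < (m : ℤ) := by omega
  nlinarith

theorem opn_pos (φ : Λ →+ ℤ) (h : 0 < φ x) : Opn (fun y => 0 < φ y) x := fun y => by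
  simpa using ev_pos h (φ y)

theorem opn_neg (φ : Λ →+ ℤ) (h : φ x < 0) : Opn (fun y => φ y < 0) x :=
  (opn_pos (-φ) (by simpa using h)).mono fun y => by simp

variable [Finite ι]

theorem opn_face (l : ι → Λ →+ ℤ) (x : Λ) : Opn (Face l x) x := fun y =>
  eventually_all.2 fun i => by
    rcases eq_or_ne (l i x) 0 with h | h
    · exact .of_forall fun _ => .inl h
    · filter_upwards [ev_pos (mul_self_pos.2 h) (l i x * l i y)] with m hm
      refine .inr (hm.trans_eq ?_)
      rw [map_add, map_nsmul, nsmul_eq_mul]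
      ring

theorem Inn.opn (h : Inn l I x) : Opn (Inn l I) x := (opn_face l x).mono fun _ => h.of_face

/-- small deformations in the span of the cell stay in the cell -/
theorem ev_face_of_mem (hz : z ∈ Zs l x) :
    ∀ᶠ m : ℕ in atTop, Face l x (m • x + z) ∧ Face l (m • x + z) x :=
  (opn_face l x z).mono fun m h =>
    ⟨h, h.symm_of_mem (add_mem (nsmul_mem (self_mem_Zs x) m) hz)⟩

theorem ev_ne (φ : Λ →+ ℤ) (x : Λ) (h : φ y ≠ 0) : ∀ᶠ m : ℕ in atTop, φ (m • x + y) ≠ 0 := by
  rcases lt_trichotomy (φ x) 0 with h1 | h1 | h1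
  · exact (opn_neg φ h1 y).mono fun _ => ne_of_lt
  · exact .of_forall fun m => by simpa [h1] using h
  · exact (opn_pos φ h1 y).mono fun _ => ne_of_gt

theorem exists_cham (l : ι → Λ →+ ℤ) : ∃ y, Cham l y := by
  classical
  have := Fintype.ofFinite ι
  suffices h : ∀ s : Finset ι, ∃ y, ∀ i ∈ s, l i y = 0 → l i = 0 from
    (h Finset.univ).imp fun y h i => h i (Finset.mem_univ i)
  intro s
  induction s using Finset.induction_on with
  | empty => exact ⟨0, by simp⟩
  | insert j s _ ih =>
    obtain ⟨y, hy⟩ := ih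
    by_cases hj : l j = 0
    · exact ⟨y, Finset.forall_mem_insert _ _ _ |>.2 ⟨fun _ => hj, hy⟩⟩
    obtain ⟨z, hz⟩ := DFunLike.ne_iff.1 hj
    obtain ⟨m, h1, h2⟩ := ((ev_ne (l j) y hz).and (opn_face l y z)).exists
    refine ⟨_, Finset.forall_mem_insert _ _ _ |>.2 ⟨fun h => absurd h h1, fun i hi h => ?_⟩⟩
    exact hy i hi ((h2 i).resolve_right (by simp only [h, mul_zero, lt_self_iff_false, not_false_iff]))

theorem Cham.ev (h : Cham l y) (x : Λ) : ∀ᶠ m : ℕ in atTop, Cham l (m • x + y) :=
  eventually_all.2 fun i => by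
    rcases eq_or_ne (l i y) 0 with h1 | h1
    · exact .of_forall fun _ _ => h i h1
    · exact (ev_ne (l i) x h1).mono fun _ h2 h3 => absurd h3 h2

/-- open cones contain generic points -/
theorem Opn.exists_cham {U : Λ → Prop} (h : Opn U x) (l : ι → Λ →+ ℤ) : ∃ y, U y ∧ Cham l y := by
  obtain ⟨y, hy⟩ := Sark46.exists_cham l
  obtain ⟨m, h1⟩ := ((h y).and (hy.ev x)).exists
  exact ⟨_, h1⟩

/-- every point of a cone with interior is a face of a chamber of the cone -/
theorem In.exists_cham {U : Λ → Prop} (hx : In l I x) (hw : Inn l I w) (hU : Opn U x) :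
    ∃ y, U y ∧ Cham l y ∧ In l I y ∧ Face l x y := by
  obtain ⟨y, h1, h2⟩ := hw.opn.exists_cham l
  obtain ⟨m, h3, h4, h5⟩ := ((hU y).and ((h2.ev x).and (opn_face l x y))).exists
  exact ⟨_, h3, h4, (hx.nsmul m).add h1.in, h5⟩

omit [Finite ι] in
theorem add_closed {S : Λ → Prop} (hS : ∀ x y, S x → S y → S (x + y)) (hx : S x) {m : ℕ}
    (hm : 0 < m) : S (m • x) := by
  induction m, hm using Nat.le_induction with
  | base => simpa using hx
  | succ m _ ih => exact succ_nsmul x m ▸ hS _ _ ih hx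

/-- **additive subsemigroups are connected for the face relation** -/
theorem chain (l : ι → Λ →+ ℤ) {S : Λ → Prop} (hS : ∀ x y, S x → S y → S (x + y))
    {R : Λ → Λ → Prop} (hR : Equivalence R) (h : ∀ x y, S x → S y → Face l x y → R x y)
    (hx : S x) (hy : S y) : R x y := by
  induction hn : {i | l i x * l i y < 0}.ncard using Nat.strong_induction_on
    generalizing x y with
  | _ n ih =>
  by_cases hc : Conf l x y
  · exact hR.trans (h _ _ hx (hS _ _ hx hy) hc.face_add)
      (hR.symm (h _ _ hy (hS _ _ hx hy) (add_comm x y ▸ hc.symm.face_add)))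
  obtain ⟨i, hi⟩ := not_forall.1 hc
  rw [not_le] at hi
  have h1 : 0 < (l i x).natAbs := Int.natAbs_pos.2 fun h => by simp [h] at hi
  have h2 : 0 < (l i y).natAbs := Int.natAbs_pos.2 fun h => by simp [h] at hi
  have h3 : l i ((l i y).natAbs • x + (l i x).natAbs • y) = 0 := by
    rw [map_add, map_nsmul, map_nsmul, nsmul_eq_mul, nsmul_eq_mul, Nat.cast_natAbs,
      Nat.cast_natAbs, Int.cast_id, Int.cast_id]
    rcases mul_neg_iff.1 hi with h | h
    · rw [abs_of_neg h.2, abs_of_pos h.1]
      ring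
    · rw [abs_of_pos h.2, abs_of_neg h.1]
      ring
  have hz := hS _ _ (add_closed hS hx h2) (add_closed hS hy h1)
  generalize (l i x).natAbs = b at h1 h3 hz
  generalize (l i y).natAbs = a at h2 h3 hz
  have h4 : (0 : ℤ) < a := Nat.cast_pos.2 h2
  have h5 : (0 : ℤ) < b := Nat.cast_pos.2 h1
  refine hR.trans (ih _ (hn ▸ Set.ncard_lt_ncard ⟨fun j hj => ?_, fun h => ?_⟩) hx hz rfl)
    (ih _ (hn ▸ Set.ncard_lt_ncard ⟨fun j hj => ?_, fun h => ?_⟩) hz hy rfl)
  · simp only [Set.mem_ofPred_eq, map_add, map_nsmul, nsmul_eq_mul] at hj ⊢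
    by_contra h6
    nlinarith [mul_nonneg h4.le (mul_self_nonneg (l j x)), mul_nonneg h5.le (not_lt.1 h6)]
  · have h6 := h hi
    simp only [Set.mem_ofPred_eq, h3, mul_zero, lt_self_iff_false] at h6
  · simp only [Set.mem_ofPred_eq, map_add, map_nsmul, nsmul_eq_mul] at hj ⊢
    by_contra h6
    nlinarith [mul_nonneg h5.le (mul_self_nonneg (l j y)), mul_nonneg h4.le (not_lt.1 h6)]
  · have h6 := h hi
    simp only [Set.mem_ofPred_eq, h3, zero_mul, lt_self_iff_false] at h6

end Crest.Agent.X262.Sark46
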