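import Crest.Agent.X262.Sark27.Term
import Crest.Agent.X262.Geo.Dv
import Crest.Agent.X262.Sark.Game

/-!
# Row 262, SARK (helper46): the end regions of the geography

`W` is a smooth model which dominates the Fano model `P`.

* `QB P W` : the classes `a` with `a - π a` positive on every exceptional prime (`π = tr P`);
* `Ng P a` : `-π a` is big; `QB.sameP` : on `QB` the ample model is `P`;
* `gen` : the classes of `W` are generated by `oP P` and the exceptional primes.
-/

set_option autoImplicit false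

open Filter
open scoped KaehlerDifferential

noncomputable section

namespace Crest.Agent.X262.Sark46

open Crest.Agent.X277 Crest.Agent.X277.Lef Crest.Agent.X277.BD Crest.Agent.X277.Pst
open Crest.Agent.X277.BD.Br (On oP kP)
open Crest.Agent.X262.Mod Crest.Agent.X262.Geo Crest.Agent.X262.Sark

variable {K : Type} [Field K] [Algebra ℂ K] {n : ℕ} {P W : PModel ℂ K} {a a' y p : BD ℂ K}

/-- `a - π a` is positive on the exceptional primes -/
def QB (P W : PModel ℂ K) (a : BD ℂ K) : Prop :=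
  ∀ V, Prm (oP W) V → ¬ Prm (oP P) V → od V (tr P a) < od V a

/-- `-π a` is big -/
def Ng (P : PModel ℂ K) (a : BD ℂ K) : Prop := Big (-tr P a)

theorem QB.add (h : QB P W a) (h' : QB P W a') : QB P W (a + a') := fun V h1 h2 => by
  rw [map_add, map_add, map_add]
  exact add_lt_add (h V h1 h2) (h' V h1 h2)

theorem QB.add_on (h : QB P W a) (hy : y ∈ On P) : QB P W (a + y) := fun V h1 h2 => by
  rw [map_add, map_add, map_add, tr_eq hy]
  exact add_lt_add_left (h V h1 h2) _

theorem fin_exc (P W : PModel ℂ K) : {V : RZ ℂ K | Prm (oP W) V ∧ ¬ Prm (oP P) V}.Finite :=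
  have := eft P
  (isMod_oP P).fin_exc (isMod_oP W)

theorem QB.ev (h : QB P W a) (y : BD ℂ K) : ∀ᶠ m : ℕ in atTop, QB P W (m • a + y) := by
  have h1 := (eventually_all_finite (fin_exc P W)).2 fun V hV =>
    Sark.ev_pos (sub_pos.2 (h V hV.1 hV.2)) (od V y - od V (tr P y))
  refine h1.mono fun m hm V h2 h3 => ?_
  have h4 := hm V ⟨h2, h3⟩
  simp only [map_add, map_nsmul, nsmul_eq_mul]
  linarith

theorem Ng.ev (h : Ng P a) (y : BD ℂ K) : ∀ᶠ m : ℕ in atTop, Ng P (m • a + y) := by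
  obtain ⟨r, hr⟩ := Big.exists_sub h (tr P y)
  filter_upwards [eventually_ge_atTop r] with m hm
  have h1 := hr m hm
  rwa [smul_neg, ← neg_add', ← map_nsmul, ← map_add] at h1

theorem not_big_zero (b : Module.Basis (Fin (n + 1)) K Ω[K⁄ℂ]) (P : PModel ℂ K) :
    ¬ Big (0 : BD ℂ K) := fun h => by
  have := eft P
  have h1 := Nef.zero.big_iff.1 h
  have h2 : dim ℂ K = n + 1 := (Module.finrank_eq_card_basis b).trans (Fintype.card_fin _)
  rw [h2, List.replicate_succ, bnum_zero] at h1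
  exact h1.false

theorem Ng.not_eff (h0 : ¬ Big (0 : BD ℂ K)) (h : Ng P a) {m : ℕ} (hm : 0 < m) : ¬ Eff (m • a) :=
  fun ⟨g, h1, h2⟩ => h0 (by
    simpa using (Big.nsmul h hm).add_eff (b := tr P (m • a)) ⟨g, Sec_le_tr _ h1, h2⟩)

variable {b : Module.Basis (Fin n) K Ω[K⁄ℂ]}

theorem tr_kP (hW : oP P ∈ On W) : tr P (kP W b) = kP P b :=
  have := eft P
  (eq_tr (Br.kP_mem b) fun _ hV =>
    (od_eq_iff hV.dvs).2 (Sark27.kP_eq_val b hV (prm_up hW hV))).symm

theorem qb_kP (hW : oP P ∈ On W) : QB P W (kP W b) := fun _ h1 h2 => by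
  have := eft P
  rw [tr_kP hW]
  exact (od_lt_iff h1.dvs).2 (Sark27.kP_lt_val b h1 h2)

theorem ng_kP (hP : F1 P b) (hW : oP P ∈ On W) : Ng P (kP W b) := by
  obtain ⟨r, hr, h⟩ := hP.1
  have h1 := (h.neg.add (Lin.rfl (a := r • oP P))).big
    (by simpa using (isMod_oP P).big.nsmul hr)
  rw [Ng, tr_kP hW]
  simpa using h1

theorem big_tr (h : Big a) : Big (tr P a) := fun y => by
  obtain ⟨c, h1, -, h2⟩ := exists_free_ge y
  obtain ⟨m, hm, g, h3, h4⟩ := h c
  refine ⟨m, hm, g, Sec_mono ?_ (Sec_le_tr (P := P) _ h3), h4⟩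
  rw [map_sub, map_nsmul]
  exact sub_le_sub_left (h2.trans (le_tr h1.nef)) _

/-- on `QB` the ample model of a big class is `P` -/
theorem QB.sameP (h0 : ¬ Big (0 : BD ℂ K)) (hP : F1 P b) (hW : oP P ∈ On W) (ha : a ∈ On W)
    (h : QB P W a) (hb : Big a) {c : ℕ} (hc : 0 < c) (hp : Pos (c • a) p) : SameP p (oP P) := by
  have := eft P
  obtain ⟨m, hm, t, f, -, h1⟩ := hP.2 _ (tr_mem (P := P) a)
  have ht : 0 < t := not_le.1 fun ht => h0 (by
    obtain ⟨s, hs⟩ := Int.eq_ofNat_of_zero_le (neg_nonneg.2 ht)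
    have h2 := (((big_tr (P := P) hb).nsmul hm).add_eff (Br.free_oP (P := P).nsmul s).eff).add_eff
      (free_neg_pr f).eff
    rwa [h1, ← natCast_zsmul, ← hs, neg_smul, add_neg_cancel_comm, add_neg_cancel] at h2)
  lift t to ℕ using ht.le
  rw [natCast_zsmul] at h1
  have h2 : tr P a ≤ a := le_On (Br.On_le_iff.2 hW (tr_mem a)) ha fun V hV => by
    by_cases h2 : Prm (oP P) V
    · exact (od_tr h2 a).le
    · exact (h V hV h2).le
  have h3 : Pos (m • a) (m • tr P a) := pos_of_eqOn (isMod_oP P)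
    (h1 ▸ (Br.free_oP.nsmul t).add (free_pr f)) ((car_of_On (tr_mem a)).nsmul m)
    (nsmul_le_nsmul_right h2 m) (LeOn.nsmul (leOn_iff.2 fun V hV => (od_tr hV a).ge) m)
  have h4 : m • p = c • (t • oP P + pr ℂ f) :=
    h1 ▸ (hp.nsmul m).unique (smul_comm c m a ▸ h3.nsmul c)
  obtain ⟨s, hs⟩ := Nat.exists_eq_add_of_le (mul_pos hc (Nat.cast_pos.1 ht))
  have h5 : (m • p - oP P).Free := by
    convert (Br.free_oP (P := P).nsmul s).add ((free_pr f).nsmul c) using 1
    rw [h4, smul_add, smul_smul, hs]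
    module
  have h6 : Car (oP P) (m • p) :=
    h4 ▸ (((car_self Br.free_oP).nsmul t).add (car_pr f)).nsmul c
  intro V
  rw [← prm_nsmul hp.free hm]
  exact ⟨h6.prm, (car_of_free (hp.free.nsmul m) Br.free_oP (n := 1) (by rwa [one_nsmul])).prm⟩

/-- the classes of `W` are generated by `oP P` and the exceptional primes -/
theorem gen (hP : F1 P b) (hW : oP P ∈ On W) : ∃ (ι : Type) (_ : Fintype ι) (g : ι → BD ℂ K),
    (∀ i, g i ∈ On W) ∧ ∀ a ∈ On W, ∃ m : ℕ, 0 < m ∧ ∃ (c : ι → ℤ) (f : K),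
      m • a = ∑ i, c i • g i + pr ℂ f := by
  refine ⟨Option (fin_exc P W).toFinset, inferInstance,
    fun i => i.elim (oP P) fun V => dv W V, fun i => i.rec hW fun V => dv_mem V.1, fun a ha => ?_⟩
  obtain ⟨m, hm, t, f, -, h1⟩ := hP.2 _ (tr_mem (P := P) a)
  refine ⟨m, hm, fun i => i.elim t fun V => od V.1 (m • (a - tr P a)), f, ?_⟩
  have h2 := eq_sum_dv (nsmul_mem (sub_mem ha (Br.On_le_iff.2 hW (tr_mem a))) m)
    (T := (fin_exc P W).toFinset) fun V hV h => (fin_exc P W).mem_toFinset.2 ⟨hV, fun h2 => h (by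
      rw [map_nsmul, map_sub, od_tr h2, sub_self, smul_zero])⟩
  rw [Fintype.sum_option]
  simp only [Option.elim]
  rw [Finset.sum_coe_sort _ fun V => od V (m • (a - tr P a)) • dv W V, ← h2, add_right_comm, ← h1,
    ← smul_add, add_sub_cancel]

end Crest.Agent.X262.Sark46
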